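import Vale.Agent.P201.Descent

/-!
P201: the zero-divisor property passes through extensions with free kernel, residually and for
semidirect products.
-/

noncomputable section

universe u v

namespace Vale.Agent.Results.P201.FreeKernel

open MonoidAlgebra Vale.Agent.P201

theorem free_kernel (K : Type v) [Field K] (G : Type u) [Group G] (N : Subgroup G) [N.Normal]
    [IsFreeGroup N] [NoZeroDivisors (MonoidAlgebra K (G ⧸ N))] :
    NoZeroDivisors (MonoidAlgebra K G) := by
  classical
  let e := IsFreeGroup.toFreeGroup N
  let B : KerBasis (QuotientGroup.mk' N) (IsFreeGroup.Generators N) :=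
    { φ := N.subtype.comp e.symm.toMonoidHom
      s := Quotient.out
      map_s := fun q => QuotientGroup.out_eq' q
      inj := Subtype.val_injective.comp e.symm.injective
      range_eq := by
        rw [MonoidHom.range_comp, MonoidHom.range_eq_top.2 e.symm.surjective,
          ← MonoidHom.range_eq_map, Subgroup.range_subtype, QuotientGroup.ker_mk'] }
  exact noZeroDivisors_of_kerBasis B

theorem semidirect (K : Type v) [Field K] (X Q : Type u) [Group Q]
    (φ : Q →* MulAut (FreeGroup X)) :
    NoZeroDivisors (MonoidAlgebra K (SemidirectProduct (FreeGroup X) Q φ)) ↔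
      NoZeroDivisors (MonoidAlgebra K Q) := by
  classical
  constructor
  · intro h
    exact (mapDomain_injective (R := K) (SemidirectProduct.inr_injective (φ := φ))).noZeroDivisors
      (mapDomainRingHom K (SemidirectProduct.inr (φ := φ))) (map_zero _) (map_mul _)
  · intro h
    let B : KerBasis (SemidirectProduct.rightHom (φ := φ)) X :=
      { φ := SemidirectProduct.inl
        s := SemidirectProduct.inr
        map_s := fun q => by simp
        inj := SemidirectProduct.inl_injective
        range_eq := SemidirectProduct.range_inl_eq_ker_rightHom }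
    exact noZeroDivisors_of_kerBasis B

theorem residual (K : Type v) [Field K] (G : Type u) [Group G]
    (h : ∀ S : Finset G, ∃ (M : Subgroup G) (_ : M.Normal) (N : Subgroup (G ⧸ M)) (_ : N.Normal),
      Set.InjOn (QuotientGroup.mk' M) S ∧ IsFreeGroup N ∧
        NoZeroDivisors (MonoidAlgebra K ((G ⧸ M) ⧸ N))) :
    NoZeroDivisors (MonoidAlgebra K G) := by
  classical
  refine ⟨fun {a b} hab => ?_⟩
  obtain ⟨M, _, N, _, hinj, hfree, hdom⟩ := h (a.coeff.support ∪ b.coeff.support)
  have := free_kernel K (G ⧸ M) N
  have h0 : ∀ c : MonoidAlgebra K G, c.coeff.support ⊆ a.coeff.support ∪ b.coeff.support →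
      mapDomainRingHom K (QuotientGroup.mk' M) c = 0 → c = 0 := by
    intro c hc h0
    refine MonoidAlgebra.ext (Finsupp.ext fun g => ?_)
    by_contra hg
    have hgs : g ∈ c.coeff.support := Finsupp.mem_support_iff.2 hg
    have := congrArg (fun d => MonoidAlgebra.coeff d (QuotientGroup.mk' M g)) h0
    simp only [mapDomainRingHom_apply, coeff_mapDomain, coeff_zero, Finsupp.zero_apply,
      Finsupp.mapDomain, Finsupp.sum, Finsupp.finsetSum_apply] at this
    rw [Finset.sum_eq_single g] at this
    · exact hg (by simpa using this)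
    · intro f hf hne
      rw [Finsupp.single_apply, if_neg]
      exact fun he => hne (hinj (Finset.mem_coe.2 (hc hf)) (Finset.mem_coe.2 (hc hgs)) he)
    · exact fun h => absurd hgs h
  have hm : mapDomainRingHom K (QuotientGroup.mk' M) a *
      mapDomainRingHom K (QuotientGroup.mk' M) b = 0 := by rw [← map_mul, hab, map_zero]
  rcases mul_eq_zero.1 hm with h | h
  · exact Or.inl (h0 a Finset.subset_union_left h)
  · exact Or.inr (h0 b Finset.subset_union_right h)

theorem result :
    (∀ (K : Type v) [Field K] (G : Type u) [Group G] (N : Subgroup G) [N.Normal] [IsFreeGroup N],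
      NoZeroDivisors (MonoidAlgebra K (G ⧸ N)) → NoZeroDivisors (MonoidAlgebra K G)) ∧
    (∀ (K : Type v) [Field K] (G : Type u) [Group G],
      (∀ S : Finset G, ∃ (M : Subgroup G) (_ : M.Normal) (N : Subgroup (G ⧸ M)) (_ : N.Normal),
        Set.InjOn (QuotientGroup.mk' M) S ∧ IsFreeGroup N ∧
          NoZeroDivisors (MonoidAlgebra K ((G ⧸ M) ⧸ N))) →
        NoZeroDivisors (MonoidAlgebra K G)) ∧
    (∀ (K : Type v) [Field K] (X Q : Type u) [Group Q] (φ : Q →* MulAut (FreeGroup X)),
      NoZeroDivisors (MonoidAlgebra K (SemidirectProduct (FreeGroup X) Q φ)) ↔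
        NoZeroDivisors (MonoidAlgebra K Q)) :=
  ⟨fun K _ G _ N _ _ h => @free_kernel K _ G _ N _ _ h,
    fun K _ G _ h => residual K G h,
    fun K _ X Q _ φ => semidirect K X Q φ⟩

end Vale.Agent.Results.P201.FreeKernel
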